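import Mathlib

/-!
Colourings, patterns and the bump functions used in the construction.
-/

namespace Vale.Agent.P090

open Pointwise

noncomputable section

theorem greedy {X : Type} (N : X → Finset X) (D : ℕ) (hD : ∀ x, (N x).card ≤ D)
    (hsymm : ∀ x y, y ∈ N x → x ∈ N y) (s : Finset X) :
    ∃ col : X → Fin (D + 1), ∀ x ∈ s, ∀ y ∈ s, y ∈ N x → col y = col x → y = x := by
  classical
  induction s using Finset.induction_on with
  | empty => exact ⟨fun _ => 0, by simp⟩
  | insert a s ha ih =>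
    obtain ⟨col, hcol⟩ := ih
    have hlt : ((N a).image col).card < (Finset.univ : Finset (Fin (D + 1))).card := by
      have := Finset.card_image_le (s := N a) (f := col)
      have := hD a
      simp only [Finset.card_univ, Fintype.card_fin]
      omega
    obtain ⟨c, -, hc⟩ := Finset.exists_mem_notMem_of_card_lt_card hlt
    refine ⟨Function.update col a c, ?_⟩
    intro x hx y hy hxy h
    by_cases hxa : x = a
    · by_cases hya : y = a
      · rw [hxa, hya]
      · exfalso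
        subst hxa
        rw [Function.update_self, Function.update_of_ne hya] at h
        exact hc (Finset.mem_image.2 ⟨y, hxy, h⟩)
    · by_cases hya : y = a
      · exfalso
        subst hya
        rw [Function.update_self, Function.update_of_ne hxa] at h
        exact hc (Finset.mem_image.2 ⟨x, hsymm _ _ hxy, h.symm⟩)
      · rw [Function.update_of_ne hxa, Function.update_of_ne hya] at h
        exact hcol x ((Finset.mem_insert.1 hx).resolve_left hxa) y
          ((Finset.mem_insert.1 hy).resolve_left hya) hxy h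

/-- A finite symmetric generating set preserving finite components. -/
structure Gens (X ι : Type) where
  S : Set (Equiv.Perm X)
  comp : X → ι
  W : ι → Finset X
  fin : S.Finite
  one_mem : 1 ∈ S
  inv_mem : ∀ s ∈ S, s⁻¹ ∈ S
  comp_eq : ∀ s ∈ S, ∀ x, comp (s x) = comp x
  mem_W : ∀ i x, x ∈ W i ↔ comp x = i

namespace Gens

variable {X ι : Type} (G : Gens X ι)

theorem inv_S : G.S⁻¹ = G.S := by
  ext s
  rw [Set.mem_inv]
  exact ⟨fun h => by simpa using G.inv_mem _ h, G.inv_mem s⟩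

theorem fin_pow (j : ℕ) : (G.S ^ j).Finite := by
  induction j with
  | zero => rw [pow_zero]; exact Set.finite_one
  | succ j ih => rw [pow_succ]; exact Set.Finite.mul ih G.fin

theorem inv_mem_pow {j : ℕ} {c : Equiv.Perm X} (h : c ∈ G.S ^ j) : c⁻¹ ∈ G.S ^ j := by
  rw [← G.inv_S, inv_pow, Set.mem_inv, inv_inv]
  exact h

theorem mul_mem_pow {i j : ℕ} {a b : Equiv.Perm X} (ha : a ∈ G.S ^ i) (hb : b ∈ G.S ^ j) :
    a * b ∈ G.S ^ (i + j) := by
  rw [pow_add]
  exact Set.mul_mem_mul ha hb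

theorem pow_mono {i j : ℕ} (h : i ≤ j) {a : Equiv.Perm X} (ha : a ∈ G.S ^ i) : a ∈ G.S ^ j :=
  Set.pow_subset_pow_right G.one_mem h ha

theorem one_mem_pow (j : ℕ) : (1 : Equiv.Perm X) ∈ G.S ^ j := Set.one_mem_pow G.one_mem

theorem mem_pow_one {s : Equiv.Perm X} (h : s ∈ G.S) : s ∈ G.S ^ 1 := by simpa using h

theorem comp_pow {j : ℕ} {c : Equiv.Perm X} (h : c ∈ G.S ^ j) (x : X) :
    G.comp (c x) = G.comp x := by
  induction j generalizing c with
  | zero =>
    rw [pow_zero, Set.mem_one] at h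
    rw [h]; rfl
  | succ j ih =>
    rw [pow_succ', Set.mem_mul] at h
    obtain ⟨a, ha, b, hb, rfl⟩ := h
    rw [Equiv.Perm.mul_apply, G.comp_eq a ha, ih hb]

theorem exists_col (R : ℕ) : ∃ (D : ℕ) (col : X → Fin (D + 1)),
    ∀ c ∈ G.S ^ R, ∀ x, col (c x) = col x → c x = x := by
  classical
  have hf : (G.S ^ R).Finite := G.fin_pow _
  let N : X → Finset X := fun x => hf.toFinset.image fun c => c x
  have hN : ∀ x y, y ∈ N x ↔ ∃ c ∈ G.S ^ R, c x = y := by
    intro x y
    simp [N]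
  have hg := greedy N hf.toFinset.card (fun x => Finset.card_image_le) (by
    intro x y hy
    obtain ⟨c, hc, rfl⟩ := (hN _ _).1 hy
    exact (hN _ _).2 ⟨c⁻¹, G.inv_mem_pow hc, by simp⟩)
  choose col hcol using hg
  refine ⟨hf.toFinset.card, fun x => col (G.W (G.comp x)) x, fun c hc x h => ?_⟩
  have e := G.comp_pow hc x
  simp only [e] at h
  exact hcol (G.W (G.comp x)) x ((G.mem_W _ _).2 rfl) (c x) ((G.mem_W _ _).2 e)
    ((hN _ _).2 ⟨c, hc, rfl⟩) h

end Gens

open Classical in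
/-- The number of `j < L` with property `A`. -/
def cnt (L : ℕ) (A : ℕ → Prop) : ℕ := ((Finset.range L).filter A).card

theorem cnt_le (L : ℕ) (A : ℕ → Prop) : cnt L A ≤ L := by
  classical
  unfold cnt
  exact (Finset.card_filter_le _ _).trans (by simp)

theorem cnt_mono (L : ℕ) {A B : ℕ → Prop} (h : ∀ j, j < L → A j → B j) : cnt L A ≤ cnt L B := by
  classical
  unfold cnt
  refine Finset.card_le_card fun j hj => ?_
  simp only [Finset.mem_filter, Finset.mem_range] at hj ⊢
  exact ⟨hj.1, h j hj.1 hj.2⟩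

theorem cnt_shift (L : ℕ) {A B : ℕ → Prop} (h : ∀ j, A (j + 1) → B j) :
    cnt L A ≤ cnt L B + 1 := by
  classical
  unfold cnt
  have hs : (Finset.range L).filter A ⊆
      insert 0 (((Finset.range L).filter B).image Nat.succ) := by
    intro j hj
    simp only [Finset.mem_filter, Finset.mem_range, Finset.mem_insert, Finset.mem_image] at hj ⊢
    rcases j with _ | j
    · exact Or.inl rfl
    · exact Or.inr ⟨j, ⟨by omega, h j hj.2⟩, rfl⟩
  refine (Finset.card_le_card hs).trans ((Finset.card_insert_le _ _).trans ?_)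
  have := Finset.card_image_le (s := (Finset.range L).filter B) (f := Nat.succ)
  omega

theorem cnt_pos {L : ℕ} {A : ℕ → Prop} (h : 0 < cnt L A) : ∃ j, j < L ∧ A j := by
  classical
  unfold cnt at h
  obtain ⟨j, hj⟩ := Finset.card_pos.1 h
  simp only [Finset.mem_filter, Finset.mem_range] at hj
  exact ⟨j, hj⟩

theorem cnt_all {L : ℕ} {A : ℕ → Prop} (h : ∀ j, j < L → A j) : cnt L A = L := by
  classical
  unfold cnt
  rw [Finset.filter_true_of_mem fun j hj => h j (Finset.mem_range.1 hj), Finset.card_range]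

theorem cnt_none {L : ℕ} {A : ℕ → Prop} (h : ∀ j, j < L → ¬ A j) : cnt L A = 0 := by
  by_contra h0
  obtain ⟨j, hj, hA⟩ := cnt_pos (Nat.pos_of_ne_zero h0)
  exact h j hj hA

theorem cnt_lt {L : ℕ} {A : ℕ → Prop} (h : cnt L A < L) : ∃ j, j < L ∧ ¬ A j := by
  by_contra h0
  push Not at h0
  rw [cnt_all h0] at h
  exact lt_irrefl _ h

/-- The bump functions and the pattern relation at scale `L`. -/
structure PhiData {X ι : Type} (G : Gens X ι) (L : ℕ) where
  φ : X → X → X → ℝ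
  same : X → X → Prop
  A : Set X
  v0 : X → X → X
  A_fin : A.Finite
  A_rep : ∀ x, ∃ a ∈ A, same x a
  nonneg : ∀ t v w, 0 ≤ φ t v w
  le_one : ∀ t v w, φ t v w ≤ 1
  lip_w : ∀ s ∈ G.S, ∀ t v w, |φ t v w - φ t v (s w)| ≤ 1 / L
  lip_tv : ∀ s ∈ G.S, ∀ t v w, |φ t v w - φ (s t) (s v) w| ≤ 2 / L
  uniq : ∀ t v w, v ≠ v0 t w → φ t v w = 0
  comp_eq : ∀ t v w, φ t v w ≠ 0 → G.comp v = G.comp w
  diag : ∀ t, φ t t t = 1
  same_eq : ∀ t w w', same w w' → φ t (v0 t w) w = φ t (v0 t w') w'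
  supp : ∀ s ∈ G.S, ∀ t, s t ≠ t → ∀ v, (∀ w, φ t v w = 0) ∨ (∀ w, φ (s t) v w = 0)

theorem abs_max_div_le {a b c L : ℝ} (hL : 0 < L) (h1 : a ≤ b + c) (h2 : b ≤ a + c) :
    |max 0 a / L - max 0 b / L| ≤ c / L := by
  rw [← sub_div, abs_div, abs_of_pos hL]
  refine div_le_div_of_nonneg_right ?_ hL.le
  rw [abs_le]
  constructor <;> rcases le_total 0 a with ha | ha <;> rcases le_total 0 b with hb | hb <;>
    simp only [max_eq_left, max_eq_right, ha, hb] <;> linarith

theorem exists_phiData {X ι : Type} (G : Gens X ι) (L : ℕ) (hL : 0 < L) :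
    Nonempty (PhiData G L) := by
  classical
  obtain ⟨D0, col, hcol⟩ := G.exists_col (L + L)
  let good : ℕ → X → X → Prop := fun j t v => ∀ u ∈ G.S ^ j, col (u t) = col (u v)
  let reach : ℕ → X → X → Prop := fun j w v => ∃ c ∈ G.S ^ j, c w = v
  let D : X → X → ℕ := fun t v => cnt L fun j => good j t v
  let d : X → X → ℕ := fun w v => cnt L fun j => ¬ reach j w v
  let φ : X → X → X → ℝ := fun t v w => max 0 ((D t v : ℝ) - d w v) / L
  have hLr : (0 : ℝ) < L := by exact_mod_cast hL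
  have hD : ∀ s ∈ G.S, ∀ t v, D t v ≤ D (s t) (s v) + 1 := by
    intro s hs t v
    refine cnt_shift L fun j h u hu => ?_
    exact h (u * s) (G.mul_mem_pow hu (G.mem_pow_one hs))
  have hD' : ∀ s ∈ G.S, ∀ t v, D (s t) (s v) ≤ D t v + 1 := by
    intro s hs t v
    simpa using hD s⁻¹ (G.inv_mem s hs) (s t) (s v)
  have hd1 : ∀ s ∈ G.S, ∀ w v, d (s w) v ≤ d w v + 1 := by
    intro s hs w v
    refine cnt_shift L fun j h ⟨c, hc, hcw⟩ => h ⟨c * s⁻¹,
      G.mul_mem_pow hc (G.mem_pow_one (G.inv_mem s hs)), ?_⟩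
    simpa using hcw
  have hd1' : ∀ s ∈ G.S, ∀ w v, d w v ≤ d (s w) v + 1 := by
    intro s hs w v
    simpa using hd1 s⁻¹ (G.inv_mem s hs) (s w) v
  have hd2 : ∀ s ∈ G.S, ∀ w v, d w (s v) ≤ d w v + 1 := by
    intro s hs w v
    refine cnt_shift L fun j h ⟨c, hc, hcw⟩ => h ⟨s * c, ?_, ?_⟩
    · rw [add_comm]
      exact G.mul_mem_pow (G.mem_pow_one hs) hc
    · rw [Equiv.Perm.mul_apply, hcw]
  have hd2' : ∀ s ∈ G.S, ∀ w v, d w v ≤ d w (s v) + 1 := by
    intro s hs w v
    simpa using hd2 s⁻¹ (G.inv_mem s hs) w (s v)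
  have hpos : ∀ t v w, φ t v w ≠ 0 → col t = col v ∧ ∃ j, j < L ∧ reach j w v := by
    intro t v w h
    have h1 : d w v < D t v := by
      by_contra h2
      apply h
      have : (D t v : ℝ) ≤ d w v := by exact_mod_cast not_lt.1 h2
      simp only [φ]
      rw [max_eq_left (by linarith), zero_div]
    obtain ⟨j, -, hj⟩ := cnt_pos (lt_of_le_of_lt (Nat.zero_le _) h1)
    refine ⟨hj 1 (G.one_mem_pow j), ?_⟩
    obtain ⟨j, hj, hr⟩ := cnt_lt (lt_of_lt_of_le h1 (cnt_le L _))
    exact ⟨j, hj, not_not.1 hr⟩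
  have huniq : ∀ t v v' w, φ t v w ≠ 0 → φ t v' w ≠ 0 → v' = v := by
    intro t v v' w h h'
    obtain ⟨e, j, hj, c, hc, hcw⟩ := hpos t v w h
    obtain ⟨e', j', hj', c', hc', hcw'⟩ := hpos t v' w h'
    have hm : c' * c⁻¹ ∈ G.S ^ (L + L) :=
      G.mul_mem_pow (G.pow_mono hj'.le hc') (G.pow_mono hj.le (G.inv_mem_pow hc))
    have hv : (c' * c⁻¹) v = v' := by
      rw [← hcw, ← hcw']
      simp
    rw [← hv]
    refine hcol _ hm v ?_
    rw [hv, ← e, ← e']
  let v0 : X → X → X := fun t w => if h : ∃ v, φ t v w ≠ 0 then h.choose else w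
  have hv0 : ∀ t v w, v ≠ v0 t w → φ t v w = 0 := by
    intro t v w hne
    by_contra h
    have hex : ∃ v, φ t v w ≠ 0 := ⟨v, h⟩
    apply hne
    simp only [v0, dif_pos hex]
    exact huniq t _ _ w hex.choose_spec h
  have hnn : ∀ t v w, 0 ≤ φ t v w := fun t v w => div_nonneg (le_max_left _ _) hLr.le
  have hle : ∀ t v w, φ t v w ≤ φ t (v0 t w) w := by
    intro t v w
    by_cases h : v = v0 t w
    · rw [← h]
    · rw [hv0 t v w h]
      exact hnn _ _ _
  have hf : (G.S ^ (L + L)).Finite := G.fin_pow _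
  let π : X → (↥(G.S ^ (L + L)) → Fin (D0 + 1)) := fun x u => col (u.1 x)
  have : Finite ↥(G.S ^ (L + L)) := hf
  have hsame : ∀ t w w', π w = π w' → φ t (v0 t w) w ≤ φ t (v0 t w') w' := by
    intro t w w' hπ
    by_cases h : φ t (v0 t w) w = 0
    · rw [h]
      exact hnn _ _ _
    obtain ⟨-, hex⟩ := hpos t _ w h
    obtain ⟨hj0, c, hc, hcw⟩ := Nat.find_spec hex
    refine le_trans ?_ (hle t (c w') w')
    have e1 : D t (v0 t w) ≤ D t (c w') := by
      refine cnt_mono L fun j hj hg u hu => ?_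
      rw [hg u hu, ← hcw]
      exact congrFun hπ ⟨u * c, G.mul_mem_pow (G.pow_mono hj.le hu) (G.pow_mono hj0.le hc)⟩
    have e2 : d w' (c w') ≤ d w (v0 t w) := by
      refine cnt_mono L fun j hj hg hr => hg ⟨c, G.pow_mono (Nat.find_min' hex ⟨hj, hr⟩) hc, rfl⟩
    have e1' : (D t (v0 t w) : ℝ) ≤ D t (c w') := by exact_mod_cast e1
    have e2' : (d w' (c w') : ℝ) ≤ d w (v0 t w) := by exact_mod_cast e2
    exact div_le_div_of_nonneg_right (max_le_max le_rfl (by linarith)) hLr.le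
  refine ⟨⟨φ, fun x y => π x = π y, Set.range fun y : Set.range π => y.2.choose, v0,
    Set.finite_range _, fun x => ?_, hnn, fun t v w => ?_, fun s hs t v w => ?_,
    fun s hs t v w => ?_, hv0, fun t v w h => ?_, fun t => ?_, fun t w w' h => ?_,
    fun s hs t hst v => ?_⟩⟩
  · exact ⟨_, ⟨⟨π x, x, rfl⟩, rfl⟩, (Exists.choose_spec (⟨x, rfl⟩ : π x ∈ Set.range π)).symm⟩
  · have h1 : (D t v : ℝ) ≤ L := by exact_mod_cast cnt_le L _
    have h2 : (0 : ℝ) ≤ d w v := Nat.cast_nonneg _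
    simp only [φ]
    rw [div_le_one hLr]
    exact max_le hLr.le (by linarith)
  · have h1 : (d (s w) v : ℝ) ≤ d w v + 1 := by exact_mod_cast hd1 s hs w v
    have h2 : (d w v : ℝ) ≤ d (s w) v + 1 := by exact_mod_cast hd1' s hs w v
    exact abs_max_div_le hLr (by linarith) (by linarith)
  · have h1 : (d w (s v) : ℝ) ≤ d w v + 1 := by exact_mod_cast hd2 s hs w v
    have h2 : (d w v : ℝ) ≤ d w (s v) + 1 := by exact_mod_cast hd2' s hs w v
    have h3 : (D t v : ℝ) ≤ D (s t) (s v) + 1 := by exact_mod_cast hD s hs t v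
    have h4 : (D (s t) (s v) : ℝ) ≤ D t v + 1 := by exact_mod_cast hD' s hs t v
    exact abs_max_div_le hLr (by linarith) (by linarith)
  · obtain ⟨-, j, -, c, hc, hcw⟩ := hpos t v w h
    rw [← hcw, G.comp_pow hc]
  · have h1 : D t t = L := cnt_all fun j _ u _ => rfl
    have h2 : d t t = 0 := cnt_none fun j _ h => h ⟨1, G.one_mem_pow j, rfl⟩
    simp only [φ, h1, h2]
    rw [Nat.cast_zero, sub_zero, max_eq_right hLr.le, div_self hLr.ne']
  · exact le_antisymm (hsame t w w' h) (hsame t w' w h.symm)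
  · by_contra hcon
    push Not at hcon
    obtain ⟨⟨w, hw⟩, w', hw'⟩ := hcon
    apply hst
    refine hcol s (G.pow_mono (by omega) (G.mem_pow_one hs)) t ?_
    rw [(hpos _ _ _ hw).1, (hpos _ _ _ hw').1]

end

end Vale.Agent.P090
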