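import Mathlib

/-!
Definitions for problem P090: the space of Lipschitz functions vanishing at a base point,
the Lipschitz-free space, uniform discreteness and the bounded approximation property.
-/

namespace Vale.Agent.P090

noncomputable section

variable (M : Type) [MetricSpace M] (o : M)

/-- The real Lipschitz functions on `M` vanishing at `o`, as a subspace of all functions. -/
def lipSubmodule : Submodule ℝ (M → ℝ) where
  carrier := {f | f o = 0 ∧ ∃ K : ℝ, 0 ≤ K ∧ ∀ x y, |f x - f y| ≤ K * dist x y}
  zero_mem' := ⟨rfl, 0, le_rfl, fun x y => by simp⟩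
  add_mem' := by
    rintro f g ⟨hf0, K, hK, hf⟩ ⟨hg0, K', hK', hg⟩
    refine ⟨by simp [hf0, hg0], K + K', add_nonneg hK hK', fun x y => ?_⟩
    have h := abs_add_le (f x - f y) (g x - g y)
    have e : (f + g) x - (f + g) y = (f x - f y) + (g x - g y) := by
      simp only [Pi.add_apply]; ring
    rw [e, add_mul]
    linarith [hf x y, hg x y]
  smul_mem' := by
    rintro c f ⟨hf0, K, hK, hf⟩
    refine ⟨by simp [hf0], |c| * K, mul_nonneg (abs_nonneg c) hK, fun x y => ?_⟩
    have e : (c • f) x - (c • f) y = c * (f x - f y) := by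
      simp only [Pi.smul_apply, smul_eq_mul]; ring
    rw [e, abs_mul, mul_assoc]
    exact mul_le_mul_of_nonneg_left (hf x y) (abs_nonneg c)

/-- The vector space `Lip_0(M)` of real Lipschitz functions on `M` vanishing at `o`. -/
def Lip0 : Type := lipSubmodule M o

instance : AddCommGroup (Lip0 M o) := inferInstanceAs (AddCommGroup (lipSubmodule M o))

instance : Module ℝ (Lip0 M o) := inferInstanceAs (Module ℝ (lipSubmodule M o))

variable {M o}

/-- The function underlying an element of `Lip_0(M)`. -/
def Lip0.toFun (f : Lip0 M o) : M → ℝ := Subtype.val f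

/-- The Lipschitz constant of `f`: the least `K ≥ 0` with `|f x - f y| ≤ K * d(x, y)`. -/
def lipConst (f : Lip0 M o) : ℝ :=
  sInf {K : ℝ | 0 ≤ K ∧ ∀ x y, |f.toFun x - f.toFun y| ≤ K * dist x y}

theorem lipConst_nonneg (f : Lip0 M o) : 0 ≤ lipConst f :=
  Real.sInf_nonneg fun _ h => h.1

theorem lipConst_le (f : Lip0 M o) {K : ℝ} (hK : 0 ≤ K)
    (h : ∀ x y, |f.toFun x - f.toFun y| ≤ K * dist x y) : lipConst f ≤ K :=
  csInf_le ⟨0, fun _ h => h.1⟩ ⟨hK, h⟩

theorem abs_sub_le_lipConst (f : Lip0 M o) (x y : M) :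
    |f.toFun x - f.toFun y| ≤ lipConst f * dist x y := by
  rcases eq_or_ne x y with rfl | hxy
  · simp
  have hd : 0 < dist x y := dist_pos.2 hxy
  rw [← div_le_iff₀ hd]
  refine le_csInf (Subtype.prop f).2 fun K hK => ?_
  rw [div_le_iff₀ hd]
  exact hK.2 x y

/-- The Lipschitz constant is a norm on `Lip_0(M)`. -/
def lipNorm : AddGroupNorm (Lip0 M o) where
  toFun := lipConst
  map_zero' := le_antisymm (lipConst_le _ le_rfl fun x y => by
    change |(0 : ℝ) - 0| ≤ _
    simp) (lipConst_nonneg _)
  add_le' f g := lipConst_le _ (add_nonneg (lipConst_nonneg f) (lipConst_nonneg g)) fun x y => by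
    have h := abs_add_le (f.toFun x - f.toFun y) (g.toFun x - g.toFun y)
    have e : (f + g).toFun x - (f + g).toFun y
        = (f.toFun x - f.toFun y) + (g.toFun x - g.toFun y) := by
      change (f.toFun x + g.toFun x) - (f.toFun y + g.toFun y) = _
      ring
    rw [e, add_mul]
    linarith [abs_sub_le_lipConst f x y, abs_sub_le_lipConst g x y]
  neg' f := by
    have e : ∀ x y, |(-f).toFun x - (-f).toFun y| = |f.toFun x - f.toFun y| := fun x y => by
      change |(-f.toFun x) - (-f.toFun y)| = _
      rw [← abs_neg]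
      congr 1
      ring
    simp only [lipConst, e]
  eq_zero_of_map_eq_zero' f hf := by
    refine Subtype.ext (funext fun x => ?_)
    have h := abs_sub_le_lipConst f x o
    have h0 : f.toFun o = 0 := (Subtype.prop f).1
    rw [hf, h0, zero_mul, sub_zero] at h
    exact abs_nonpos_iff.1 h

/-- `Lip_0(M)` is normed by the Lipschitz constant. -/
instance : NormedAddCommGroup (Lip0 M o) := AddGroupNorm.toNormedAddCommGroup lipNorm

instance : NormedSpace ℝ (Lip0 M o) where
  norm_smul_le c f := lipConst_le _ (mul_nonneg (norm_nonneg c) (lipConst_nonneg f)) fun x y => by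
    have e : (c • f).toFun x - (c • f).toFun y = c * (f.toFun x - f.toFun y) := by
      change c * f.toFun x - c * f.toFun y = _
      ring
    rw [e, abs_mul, mul_assoc]
    exact mul_le_mul_of_nonneg_left (abs_sub_le_lipConst f x y) (abs_nonneg c)

variable (o)

/-- The evaluation functional `δ_x` on `Lip_0(M)`, `δ_x(f) = f(x)`. -/
def delta (x : M) : StrongDual ℝ (Lip0 M o) :=
  LinearMap.mkContinuous
    { toFun := fun f => f.toFun x
      map_add' := fun _ _ => rfl
      map_smul' := fun _ _ => rfl }
    (dist x o) fun f => by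
      have h := abs_sub_le_lipConst f x o
      have h0 : f.toFun o = 0 := (Subtype.prop f).1
      rw [h0, sub_zero, mul_comm] at h
      exact h

variable (M)

/-- The Lipschitz-free space `F(M)`: the closed linear span of the `δ_x` in `Lip_0(M)^*`. -/
def FreeSpace : Submodule ℝ (StrongDual ℝ (Lip0 M o)) :=
  (Submodule.span ℝ (Set.range (delta o))).topologicalClosure

/-- `M` is uniformly discrete: distinct points are at distance at least some fixed `θ > 0`. -/
def UniformlyDiscrete : Prop :=
  ∃ θ : ℝ, 0 < θ ∧ ∀ x y : M, x ≠ y → θ ≤ dist x y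

/-- The `lam`-bounded approximation property of a real normed space `X`. -/
def HasBoundedAPWith (X : Type) [NormedAddCommGroup X] [NormedSpace ℝ X] (lam : ℝ) : Prop :=
  ∀ C : Set X, IsCompact C → ∀ ε : ℝ, 0 < ε →
    ∃ T : X →L[ℝ] X, FiniteDimensional ℝ (LinearMap.range (T : X →ₗ[ℝ] X)) ∧ ‖T‖ ≤ lam ∧
      ∀ u ∈ C, ‖T u - u‖ < ε

/-- The bounded approximation property: the `lam`-BAP for some finite `lam ≥ 1`. -/
def HasBAP (X : Type) [NormedAddCommGroup X] [NormedSpace ℝ X] : Prop :=
  ∃ lam : ℝ, 1 ≤ lam ∧ HasBoundedAPWith X lam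

end

end Vale.Agent.P090
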