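import Vale.Agent.P090.Defs

/-!
Basic facts on the Lipschitz-free space.
-/

namespace Vale.Agent.P090

noncomputable section

variable {M : Type} [MetricSpace M] {o : M}

theorem norm_le_of_lip (f : Lip0 M o) {K : ℝ} (hK : 0 ≤ K)
    (h : ∀ x y, |f.toFun x - f.toFun y| ≤ K * dist x y) : ‖f‖ ≤ K := lipConst_le f hK h

theorem abs_sub_le_norm (f : Lip0 M o) (x y : M) :
    |f.toFun x - f.toFun y| ≤ ‖f‖ * dist x y := abs_sub_le_lipConst f x y

theorem delta_apply (x : M) (f : Lip0 M o) : delta o x f = f.toFun x := rfl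

theorem toFun_base (f : Lip0 M o) : f.toFun o = 0 := (Subtype.prop f).1

theorem norm_delta_sub_le (x y : M) : ‖delta o x - delta o y‖ ≤ dist x y := by
  refine ContinuousLinearMap.opNorm_le_bound _ dist_nonneg fun f => ?_
  rw [sub_apply, delta_apply, delta_apply, mul_comm]
  exact abs_sub_le_norm f x y

theorem norm_delta_le (x : M) : ‖delta o x‖ ≤ dist x o := by
  refine ContinuousLinearMap.opNorm_le_bound _ dist_nonneg fun f => ?_
  have h := abs_sub_le_norm f x o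
  rw [toFun_base, sub_zero, mul_comm] at h
  exact h

variable (o) in
/-- The evaluation functional as an element of the free space. -/
def deltaF (x : M) : FreeSpace M o :=
  ⟨delta o x, Submodule.le_topologicalClosure _ (Submodule.subset_span ⟨x, rfl⟩)⟩

theorem norm_deltaF_sub_le (x y : M) : ‖deltaF o x - deltaF o y‖ ≤ dist x y :=
  norm_delta_sub_le x y

theorem norm_deltaF_le (x : M) : ‖deltaF o x‖ ≤ dist x o := norm_delta_le x

theorem span_finite_support {μ : StrongDual ℝ (Lip0 M o)}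
    (h : μ ∈ Submodule.span ℝ (Set.range (delta o))) :
    ∃ B : Set M, B.Finite ∧ ∀ G : Lip0 M o, (∀ b ∈ B, G.toFun b = 0) → μ G = 0 := by
  induction h using Submodule.span_induction with
  | mem x hx =>
    obtain ⟨y, rfl⟩ := hx
    exact ⟨{y}, Set.finite_singleton y, fun G hG => hG y rfl⟩
  | zero => exact ⟨∅, Set.finite_empty, fun G _ => rfl⟩
  | add x y _ _ hx hy =>
    obtain ⟨B, hB, h1⟩ := hx
    obtain ⟨B', hB', h2⟩ := hy
    refine ⟨B ∪ B', hB.union hB', fun G hG => ?_⟩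
    rw [add_apply, h1 G fun b hb => hG b (Or.inl hb),
      h2 G fun b hb => hG b (Or.inr hb), add_zero]
  | smul c x _ hx =>
    obtain ⟨B, hB, h1⟩ := hx
    refine ⟨B, hB, fun G hG => ?_⟩
    rw [smul_apply, h1 G hG, smul_zero]

theorem compact_finite_support {K : Set (FreeSpace M o)} (hK : IsCompact K) {ε : ℝ} (hε : 0 < ε) :
    ∃ B : Set M, B.Finite ∧ ∀ μ ∈ K, ∀ G : Lip0 M o, (∀ b ∈ B, G.toFun b = 0) →
      |(μ : StrongDual ℝ (Lip0 M o)) G| ≤ ε * ‖G‖ := by
  refine hK.induction_on (p := fun s => ∃ B : Set M, B.Finite ∧ ∀ μ ∈ s, ∀ G : Lip0 M o,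
    (∀ b ∈ B, G.toFun b = 0) → |(μ : StrongDual ℝ (Lip0 M o)) G| ≤ ε * ‖G‖) ?_ ?_ ?_ ?_
  · exact ⟨∅, Set.finite_empty, fun μ hμ => absurd hμ (Set.notMem_empty μ)⟩
  · rintro s t hst ⟨B, hB, h⟩
    exact ⟨B, hB, fun μ hμ => h μ (hst hμ)⟩
  · rintro s t ⟨B, hB, h⟩ ⟨B', hB', h'⟩
    refine ⟨B ∪ B', hB.union hB', ?_⟩
    rintro μ (hμ | hμ) G hG
    · exact h μ hμ G fun b hb => hG b (Or.inl hb)
    · exact h' μ hμ G fun b hb => hG b (Or.inr hb)
  · intro x _
    have hx : (x : StrongDual ℝ (Lip0 M o)) ∈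
        closure (Submodule.span ℝ (Set.range (delta o)) : Set (StrongDual ℝ (Lip0 M o))) := x.2
    obtain ⟨y, hy, hxy⟩ := Metric.mem_closure_iff.1 hx (ε / 2) (half_pos hε)
    obtain ⟨B, hB, h⟩ := span_finite_support hy
    refine ⟨Metric.ball x (ε / 2), mem_nhdsWithin_of_mem_nhds (Metric.ball_mem_nhds x
      (half_pos hε)), B, hB, fun μ hμ G hG => ?_⟩
    have h1 : dist (μ : StrongDual ℝ (Lip0 M o)) x < ε / 2 := hμ
    have h2 : ‖(μ : StrongDual ℝ (Lip0 M o)) - y‖ ≤ ε := by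
      rw [← dist_eq_norm]
      linarith [dist_triangle (μ : StrongDual ℝ (Lip0 M o)) x y]
    have h3 := ((μ : StrongDual ℝ (Lip0 M o)) - y).le_opNorm G
    rw [sub_apply, h G hG, sub_zero, Real.norm_eq_abs] at h3
    exact h3.trans (mul_le_mul_of_nonneg_right h2 (norm_nonneg G))

theorem finiteRank_compact {E : Type} [NormedAddCommGroup E] [NormedSpace ℝ E] (T : E →L[ℝ] E)
    (hT : FiniteDimensional ℝ (LinearMap.range (T : E →ₗ[ℝ] E))) (R : ℝ) :
    ∃ K : Set E, IsCompact K ∧ ∀ x, ‖T x‖ ≤ R → T x ∈ K := by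
  have : ProperSpace (LinearMap.range (T : E →ₗ[ℝ] E)) := FiniteDimensional.proper_real _
  refine ⟨Subtype.val '' Metric.closedBall (0 : LinearMap.range (T : E →ₗ[ℝ] E)) R,
    (isCompact_closedBall _ _).image continuous_subtype_val, fun x hx => ?_⟩
  exact ⟨⟨T x, x, rfl⟩, mem_closedBall_zero_iff.2 hx, rfl⟩

theorem norm_le_of_bdd (hsep : ∀ m m' : M, m ≠ m' → 1 ≤ dist m m') (F : Lip0 M o) {h : ℝ}
    (hF : ∀ m, |F.toFun m| ≤ h) : ‖F‖ ≤ 2 * h := by
  have h0 : 0 ≤ h := (abs_nonneg _).trans (hF o)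
  refine norm_le_of_lip F (by positivity) fun x y => ?_
  rcases eq_or_ne x y with rfl | hxy
  · simp
  · have h1 := abs_sub (F.toFun x) (F.toFun y)
    nlinarith [hF x, hF y, hsep x y hxy]

theorem exists_extension (hsep : ∀ m m' : M, m ≠ m' → 1 ≤ dist m m') {X : Type} (e : X → M)
    (he : Function.Injective e) (ho : o ∉ Set.range e) (f : X → ℝ) (hf : ∀ x, |f x| ≤ 1) :
    ∃ F : Lip0 M o, (∀ x, F.toFun (e x) = f x) ∧ ∀ m, m ∉ Set.range e → F.toFun m = 0 := by
  have h1 : ∀ x, Function.extend e f (0 : M → ℝ) (e x) = f x := fun x => he.extend_apply f 0 x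
  have h2 : ∀ m, m ∉ Set.range e → Function.extend e f (0 : M → ℝ) m = 0 := fun m hm =>
    Function.extend_apply' f (0 : M → ℝ) m hm
  have h3 : ∀ m, |Function.extend e f (0 : M → ℝ) m| ≤ 1 := by
    intro m
    by_cases hm : m ∈ Set.range e
    · obtain ⟨x, rfl⟩ := hm
      rw [h1]
      exact hf x
    · rw [h2 m hm]
      simp
  refine ⟨⟨Function.extend e f (0 : M → ℝ), h2 o ho, 2, by norm_num, fun x y => ?_⟩, h1, h2⟩
  rcases eq_or_ne x y with rfl | hxy
  · simp
  · have h4 := abs_sub (Function.extend e f (0 : M → ℝ) x) (Function.extend e f (0 : M → ℝ) y)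
    nlinarith [h3 x, h3 y, hsep x y hxy]

theorem toFun_sum {X : Type} (V : Finset X) (θ : X → ℝ) (Φ : X → Lip0 M o) (m : M) :
    (∑ v ∈ V, θ v • Φ v).toFun m = ∑ v ∈ V, θ v * (Φ v).toFun m := by
  rw [← delta_apply, map_sum]
  simp only [map_smul, smul_eq_mul, delta_apply]

theorem toFun_sub (F G : Lip0 M o) (m : M) : (F - G).toFun m = F.toFun m - G.toFun m := by
  rw [← delta_apply, map_sub, delta_apply, delta_apply]

end

end Vale.Agent.P090
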