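import Mathlib

/-!
Spectral gap for the affine action of the four standard generators on `(ZMod n)^2`.
-/

namespace Vale.Agent.P090

open Finset

noncomputable section

/-- The four affine generators acting on `R × R`. -/
def act {R : Type} [CommRing R] (i : Fin 4) : Equiv.Perm (R × R) :=
  match i with
  | 0 => ⟨fun x => (x.1 + 1, x.2), fun x => (x.1 - 1, x.2), fun x => by simp, fun x => by simp⟩
  | 1 => ⟨fun x => (x.1, x.2 + 1), fun x => (x.1, x.2 - 1), fun x => by simp, fun x => by simp⟩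
  | 2 => ⟨fun x => (x.1 + x.2, x.2), fun x => (x.1 - x.2, x.2), fun x => by simp,
      fun x => by simp⟩
  | 3 => ⟨fun x => (x.1, x.1 + x.2), fun x => (x.1, x.2 - x.1), fun x => by simp,
      fun x => by simp⟩

theorem act0 {R : Type} [CommRing R] (x : R × R) : act 0 x = (x.1 + 1, x.2) := rfl
theorem act1 {R : Type} [CommRing R] (x : R × R) : act 1 x = (x.1, x.2 + 1) := rfl
theorem act2 {R : Type} [CommRing R] (x : R × R) : act 2 x = (x.1 + x.2, x.2) := rfl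
theorem act3 {R : Type} [CommRing R] (x : R × R) : act 3 x = (x.1, x.1 + x.2) := rfl
theorem act2s {R : Type} [CommRing R] (x : R × R) : (act 2).symm x = (x.1 - x.2, x.2) := rfl
theorem act3s {R : Type} [CommRing R] (x : R × R) : (act 3).symm x = (x.1, x.2 - x.1) := rfl

theorem act_map {R R' : Type} [CommRing R] [CommRing R'] (f : R →+* R') (i : Fin 4) (x : R × R) :
    act i (f x.1, f x.2) = (f (act i x).1, f (act i x).2) := by
  fin_cases i <;> simp [act]

/-- One ping-pong step. -/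
theorem pp_step {G : Type} [Fintype G] (m : G → ℝ) (g : G ≃ G) (S T : G → Prop)
    [DecidablePred S] [DecidablePred T] (h : ∀ x, S x → T (g x)) :
    ∑ x, (if S x then m x ^ 2 else 0) ≤
      3 / 2 * ∑ x, (if T x then m x ^ 2 else 0) + 3 * ∑ x, (m x - m (g x)) ^ 2 := by
  rw [← Equiv.sum_comp g (fun x => if T x then m x ^ 2 else 0), Finset.mul_sum, Finset.mul_sum,
    ← Finset.sum_add_distrib]
  refine Finset.sum_le_sum fun x _ => ?_
  by_cases hS : S x
  · rw [if_pos hS, if_pos (h x hS)]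
    nlinarith [sq_nonneg (2 * m x - 3 * m (g x))]
  · rw [if_neg hS]
    split_ifs <;> positivity

theorem sum_sq_symm {G : Type} [Fintype G] (m : G → ℝ) (g : G ≃ G) :
    ∑ x, (m x - m (g.symm x)) ^ 2 = ∑ x, (m x - m (g x)) ^ 2 := by
  rw [← Equiv.sum_comp g (fun x => (m x - m (g.symm x)) ^ 2)]
  refine Finset.sum_congr rfl fun x _ => ?_
  rw [Equiv.symm_apply_apply]
  ring

section ZModPart

variable {n : ℕ} [NeZero n]

theorem vma_add (a b : ZMod n) (ha : 4 * |a.valMinAbs| < n) (hb : 4 * |b.valMinAbs| < n) :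
    (a + b).valMinAbs = a.valMinAbs + b.valMinAbs := by
  rw [ZMod.valMinAbs_spec]
  refine ⟨by simp, ?_, ?_⟩
  · have := neg_abs_le a.valMinAbs
    have := neg_abs_le b.valMinAbs
    omega
  · have := le_abs_self a.valMinAbs
    have := le_abs_self b.valMinAbs
    omega

theorem vma_sub (a b : ZMod n) (ha : 4 * |a.valMinAbs| < n) (hb : 4 * |b.valMinAbs| < n) :
    (a - b).valMinAbs = a.valMinAbs - b.valMinAbs := by
  rw [ZMod.valMinAbs_spec]
  refine ⟨by simp, ?_, ?_⟩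
  · have := neg_abs_le a.valMinAbs
    have := le_abs_self b.valMinAbs
    omega
  · have := le_abs_self a.valMinAbs
    have := neg_abs_le b.valMinAbs
    omega

/-- The ping-pong inequality on the dual side. -/
theorem pingpong (m : ZMod n × ZMod n → ℝ) (h0 : m 0 = 0) :
    ∑ x, m x ^ 2 ≤
      4 * ∑ x : ZMod n × ZMod n,
          (if 4 * |x.1.valMinAbs| < n ∧ 4 * |x.2.valMinAbs| < n then 0 else m x ^ 2)
        + 12 * (∑ x, (m x - m (act 2 x)) ^ 2 + ∑ x, (m x - m (act 3 x)) ^ 2) := by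
  let Z : ZMod n × ZMod n → Prop := fun x => 4 * |x.1.valMinAbs| < n ∧ 4 * |x.2.valMinAbs| < n
  let P : ZMod n × ZMod n → Prop := fun x =>
    (0 < x.1.valMinAbs ∧ 0 ≤ x.2.valMinAbs) ∨ (x.1.valMinAbs < 0 ∧ x.2.valMinAbs ≤ 0)
  let N : ZMod n × ZMod n → Prop := fun x =>
    (x.1.valMinAbs ≤ 0 ∧ 0 < x.2.valMinAbs) ∨ (0 ≤ x.1.valMinAbs ∧ x.2.valMinAbs < 0)
  have hA := pp_step m (act 2) (fun x => Z x ∧ P x)
    (fun x => P x ∧ x.2.valMinAbs.natAbs < x.1.valMinAbs.natAbs) (by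
      rintro x ⟨⟨h1, h2⟩, hP⟩
      simp only [P, act2, vma_add _ _ h1 h2] at hP ⊢
      omega)
  have hB := pp_step m (act 3) (fun x => Z x ∧ P x)
    (fun x => P x ∧ x.1.valMinAbs.natAbs ≤ x.2.valMinAbs.natAbs) (by
      rintro x ⟨⟨h1, h2⟩, hP⟩
      simp only [P, act3, vma_add _ _ h1 h2] at hP ⊢
      omega)
  have hC := pp_step m (act 3).symm (fun x => Z x ∧ N x)
    (fun x => N x ∧ x.1.valMinAbs.natAbs < x.2.valMinAbs.natAbs) (by
      rintro x ⟨⟨h1, h2⟩, hP⟩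
      simp only [N, act3s, vma_sub _ _ h2 h1] at hP ⊢
      omega)
  have hD := pp_step m (act 2).symm (fun x => Z x ∧ N x)
    (fun x => N x ∧ x.2.valMinAbs.natAbs ≤ x.1.valMinAbs.natAbs) (by
      rintro x ⟨⟨h1, h2⟩, hP⟩
      simp only [N, act2s, vma_sub _ _ h1 h2] at hP ⊢
      omega)
  rw [sum_sq_symm] at hC hD
  have h1 : ∑ x, (if P x ∧ x.2.valMinAbs.natAbs < x.1.valMinAbs.natAbs then m x ^ 2 else 0)
      + ∑ x, (if P x ∧ x.1.valMinAbs.natAbs ≤ x.2.valMinAbs.natAbs then m x ^ 2 else 0)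
      + ∑ x, (if N x ∧ x.1.valMinAbs.natAbs < x.2.valMinAbs.natAbs then m x ^ 2 else 0)
      + ∑ x, (if N x ∧ x.2.valMinAbs.natAbs ≤ x.1.valMinAbs.natAbs then m x ^ 2 else 0)
      ≤ ∑ x, m x ^ 2 := by
    rw [← Finset.sum_add_distrib, ← Finset.sum_add_distrib, ← Finset.sum_add_distrib]
    refine Finset.sum_le_sum fun x _ => ?_
    have := sq_nonneg (m x)
    simp only [P, N]
    split_ifs <;> first | omega | linarith
  have h2 : ∑ x, m x ^ 2 = ∑ x, (if Z x ∧ P x then m x ^ 2 else 0)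
      + ∑ x, (if Z x ∧ N x then m x ^ 2 else 0) + ∑ x, (if Z x then 0 else m x ^ 2) := by
    rw [← Finset.sum_add_distrib, ← Finset.sum_add_distrib]
    refine Finset.sum_congr rfl fun x _ => ?_
    by_cases hZ : Z x
    · by_cases hP : P x
      · have hN : ¬ N x := by
          simp only [P, N] at hP ⊢
          omega
        simp [hZ, hP, hN]
      · by_cases hN : N x
        · simp [hZ, hP, hN]
        · have hx : x = 0 := by
            simp only [P, N] at hP hN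
            have h1 : x.1.valMinAbs = 0 := by omega
            have h2 : x.2.valMinAbs = 0 := by omega
            rw [ZMod.valMinAbs_eq_zero] at h1 h2
            exact Prod.ext h1 h2
          simp [hx, h0]
    · simp [hZ]
  simp only [Z] at h2 hA hB hC hD
  linarith

/-- The discrete Fourier transform on `(ZMod n)^2`. -/
def ft (v : ZMod n × ZMod n → ℝ) (ξ : ZMod n × ZMod n) : ℂ :=
  ∑ x : ZMod n × ZMod n, (v x : ℂ) * ZMod.stdAddChar (ξ.1 * x.1 + ξ.2 * x.2)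

theorem conj_char (a : ZMod n) :
    (starRingEnd ℂ) (ZMod.stdAddChar a) = ZMod.stdAddChar (-a) := by
  rw [ZMod.stdAddChar_apply, ZMod.stdAddChar_apply, AddChar.map_neg_eq_inv, Circle.coe_inv_eq_conj]

theorem sum_char (b : ZMod n × ZMod n) :
    ∑ ξ : ZMod n × ZMod n, (ZMod.stdAddChar (ξ.1 * b.1 + ξ.2 * b.2) : ℂ)
      = if b = 0 then ((n : ℂ) ^ 2) else 0 := by
  rw [Fintype.sum_prod_type]
  simp only [AddChar.map_add_eq_mul]
  rw [← Finset.sum_mul_sum, AddChar.sum_mulShift _ (ZMod.isPrimitive_stdAddChar n),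
    AddChar.sum_mulShift _ (ZMod.isPrimitive_stdAddChar n)]
  obtain ⟨b1, b2⟩ := b
  by_cases h1 : b1 = 0 <;> by_cases h2 : b2 = 0 <;> simp [h1, h2, sq]

theorem parseval (v : ZMod n × ZMod n → ℝ) :
    ∑ ξ, ‖ft v ξ‖ ^ 2 = (n : ℝ) ^ 2 * ∑ x, v x ^ 2 := by
  have key : ∑ ξ, (ft v ξ * (starRingEnd ℂ) (ft v ξ)) = (n : ℂ) ^ 2 * ∑ x, (v x : ℂ) ^ 2 := by
    have e : ∀ ξ, ft v ξ * (starRingEnd ℂ) (ft v ξ) = ∑ x : ZMod n × ZMod n,
        ∑ y : ZMod n × ZMod n, (v x : ℂ) * (v y : ℂ) *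
          ZMod.stdAddChar (ξ.1 * (x - y).1 + ξ.2 * (x - y).2) := by
      intro ξ
      simp only [ft, map_sum, Finset.sum_mul_sum]
      refine Finset.sum_congr rfl fun x _ => Finset.sum_congr rfl fun y _ => ?_
      rw [map_mul, Complex.conj_ofReal, conj_char]
      have : ξ.1 * (x - y).1 + ξ.2 * (x - y).2
          = (ξ.1 * x.1 + ξ.2 * x.2) + -(ξ.1 * y.1 + ξ.2 * y.2) := by
        simp only [Prod.fst_sub, Prod.snd_sub]; ring
      rw [this, AddChar.map_add_eq_mul _ (ξ.1 * x.1 + ξ.2 * x.2)]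
      ring
    simp only [e]
    rw [Finset.sum_comm, Finset.mul_sum]
    refine Finset.sum_congr rfl fun x _ => ?_
    rw [Finset.sum_comm]
    simp only [← Finset.mul_sum, sum_char, sub_eq_zero]
    rw [Finset.sum_eq_single x]
    · simp; ring
    · intro y _ hy
      simp [Ne.symm hy]
    · simp
  simp only [Complex.mul_conj, Complex.normSq_eq_norm_sq] at key
  exact_mod_cast key

theorem ft_sub (v w : ZMod n × ZMod n → ℝ) (ξ : ZMod n × ZMod n) :
    ft (fun x => v x - w x) ξ = ft v ξ - ft w ξ := by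
  simp only [ft, ← Finset.sum_sub_distrib]
  refine Finset.sum_congr rfl fun x _ => ?_
  push_cast
  ring

theorem ft_act0 (v : ZMod n × ZMod n → ℝ) (ξ : ZMod n × ZMod n) :
    ft (fun x => v (act 0 x)) ξ = ZMod.stdAddChar (-ξ.1) * ft v ξ := by
  simp only [ft]
  rw [← Equiv.sum_comp (act 0) (fun x : ZMod n × ZMod n =>
    (v x : ℂ) * ZMod.stdAddChar (ξ.1 * x.1 + ξ.2 * x.2)), Finset.mul_sum]
  refine Finset.sum_congr rfl fun x _ => ?_
  rw [mul_left_comm, ← AddChar.map_add_eq_mul, act0]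
  congr 2
  ring

theorem ft_act1 (v : ZMod n × ZMod n → ℝ) (ξ : ZMod n × ZMod n) :
    ft (fun x => v (act 1 x)) ξ = ZMod.stdAddChar (-ξ.2) * ft v ξ := by
  simp only [ft]
  rw [← Equiv.sum_comp (act 1) (fun x : ZMod n × ZMod n =>
    (v x : ℂ) * ZMod.stdAddChar (ξ.1 * x.1 + ξ.2 * x.2)), Finset.mul_sum]
  refine Finset.sum_congr rfl fun x _ => ?_
  rw [mul_left_comm, ← AddChar.map_add_eq_mul, act1]
  congr 2
  ring

theorem ft_act2 (v : ZMod n × ZMod n → ℝ) (ξ : ZMod n × ZMod n) :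
    ft (fun x => v (act 2 x)) (act 3 ξ) = ft v ξ := by
  simp only [ft]
  rw [← Equiv.sum_comp (act 2) (fun x : ZMod n × ZMod n =>
    (v x : ℂ) * ZMod.stdAddChar (ξ.1 * x.1 + ξ.2 * x.2))]
  refine Finset.sum_congr rfl fun x _ => ?_
  rw [act2, act3]
  congr 2
  ring

theorem ft_act3 (v : ZMod n × ZMod n → ℝ) (ξ : ZMod n × ZMod n) :
    ft (fun x => v (act 3 x)) (act 2 ξ) = ft v ξ := by
  simp only [ft]
  rw [← Equiv.sum_comp (act 3) (fun x : ZMod n × ZMod n =>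
    (v x : ℂ) * ZMod.stdAddChar (ξ.1 * x.1 + ξ.2 * x.2))]
  refine Finset.sum_congr rfl fun x _ => ?_
  rw [act2, act3]
  congr 2
  ring

theorem two_le_char (a : ZMod n) (ha : ¬ 4 * |a.valMinAbs| < n) :
    2 ≤ ‖1 - (ZMod.stdAddChar (-a) : ℂ)‖ ^ 2 := by
  have hn : (0 : ℝ) < n := by exact_mod_cast Nat.pos_of_ne_zero (NeZero.ne n)
  have h1 : (-a : ZMod n) = ((-a.valMinAbs : ℤ) : ZMod n) := by simp
  set k : ℤ := a.valMinAbs with hk
  have hk2 : 2 * |k| ≤ n := by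
    have := ZMod.valMinAbs_mem_Ioc a
    rw [← hk] at this
    obtain ⟨h1, h2⟩ := this
    rcases abs_cases k with h | h <;> omega
  have hk4 : (n : ℤ) ≤ 4 * |k| := not_lt.1 ha
  have hk2' : 2 * |(k : ℝ)| ≤ n := by exact_mod_cast hk2
  have hk4' : (n : ℝ) ≤ 4 * |(k : ℝ)| := by exact_mod_cast hk4
  rw [h1, ZMod.stdAddChar_coe]
  have e : (2 * (Real.pi : ℂ) * Complex.I * ((-k : ℤ) : ℂ) / (n : ℂ))
      = ((2 * Real.pi * (-k) / n : ℝ) : ℂ) * Complex.I := by
    push_cast; ring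
  rw [e, ← Complex.normSq_eq_norm_sq, Complex.normSq_apply]
  simp only [Complex.sub_re, Complex.one_re, Complex.exp_ofReal_mul_I_re, Complex.sub_im,
    Complex.one_im, Complex.exp_ofReal_mul_I_im]
  set θ : ℝ := 2 * Real.pi * (-k) / n with hθ
  have hcos : Real.cos θ ≤ 0 := by
    rw [← Real.cos_abs]
    have habs : |θ| = 2 * Real.pi * |(k : ℝ)| / n := by
      rw [hθ, abs_div, abs_mul, abs_neg, abs_of_pos hn, abs_of_pos (by positivity)]
    have hpi := Real.pi_pos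
    apply Real.cos_nonpos_of_pi_div_two_le_of_le
    · rw [habs, le_div_iff₀ hn]
      nlinarith
    · rw [habs, div_le_iff₀ hn]
      nlinarith
  nlinarith [Real.sin_sq_add_cos_sq θ]

/-- The `L^2` spectral gap. -/
theorem gap_two (v : ZMod n × ZMod n → ℝ) (hv : ∑ x, v x = 0) :
    ∑ x, v x ^ 2 ≤ 12 * ∑ i : Fin 4, ∑ x, (v x - v (act i x)) ^ 2 := by
  have hn : (0 : ℝ) < n := by exact_mod_cast Nat.pos_of_ne_zero (NeZero.ne n)
  have h0 : ‖ft v 0‖ = 0 := by
    simp only [ft, Prod.fst_zero, Prod.snd_zero, zero_mul, add_zero, AddChar.map_zero_eq_one,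
      mul_one]
    rw [← Complex.ofReal_sum, hv]
    simp
  have hp := pingpong (fun ξ => ‖ft v ξ‖) h0
  have hE : ∀ i : Fin 4, ∑ ξ, ‖ft v ξ - ft (fun x => v (act i x)) ξ‖ ^ 2
      = (n : ℝ) ^ 2 * ∑ x, (v x - v (act i x)) ^ 2 := by
    intro i
    rw [← parseval]
    simp only [ft_sub]
  have h2 : ∑ ξ, (‖ft v ξ‖ - ‖ft v (act 3 ξ)‖) ^ 2
      ≤ (n : ℝ) ^ 2 * ∑ x, (v x - v (act 2 x)) ^ 2 := by
    rw [← hE, ← Equiv.sum_comp (act 3)
      (fun ξ => ‖ft v ξ - ft (fun x => v (act 2 x)) ξ‖ ^ 2)]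
    refine Finset.sum_le_sum fun ξ _ => ?_
    rw [ft_act2, norm_sub_rev, ← sq_abs]
    exact pow_le_pow_left₀ (abs_nonneg _) (abs_norm_sub_norm_le _ _) 2
  have h3 : ∑ ξ, (‖ft v ξ‖ - ‖ft v (act 2 ξ)‖) ^ 2
      ≤ (n : ℝ) ^ 2 * ∑ x, (v x - v (act 3 x)) ^ 2 := by
    rw [← hE, ← Equiv.sum_comp (act 2)
      (fun ξ => ‖ft v ξ - ft (fun x => v (act 3 x)) ξ‖ ^ 2)]
    refine Finset.sum_le_sum fun ξ _ => ?_
    rw [ft_act3, norm_sub_rev, ← sq_abs]
    exact pow_le_pow_left₀ (abs_nonneg _) (abs_norm_sub_norm_le _ _) 2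
  have h01 : 2 * ∑ ξ : ZMod n × ZMod n,
      (if 4 * |ξ.1.valMinAbs| < n ∧ 4 * |ξ.2.valMinAbs| < n then 0 else ‖ft v ξ‖ ^ 2)
      ≤ (n : ℝ) ^ 2 * ∑ x, (v x - v (act 0 x)) ^ 2
        + (n : ℝ) ^ 2 * ∑ x, (v x - v (act 1 x)) ^ 2 := by
    rw [← hE, ← hE, ← Finset.sum_add_distrib, Finset.mul_sum]
    refine Finset.sum_le_sum fun ξ _ => ?_
    rw [ft_act0, ft_act1, ← one_sub_mul, ← one_sub_mul, norm_mul, norm_mul, mul_pow, mul_pow]
    have hs := sq_nonneg ‖ft v ξ‖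
    split_ifs with h
    · rw [mul_zero]
      positivity
    · rw [not_and_or] at h
      rcases h with h | h
      · have := two_le_char ξ.1 h
        nlinarith [sq_nonneg ‖1 - (ZMod.stdAddChar (-ξ.2) : ℂ)‖]
      · have := two_le_char ξ.2 h
        nlinarith [sq_nonneg ‖1 - (ZMod.stdAddChar (-ξ.1) : ℂ)‖]
  rw [parseval] at hp
  rw [Fin.sum_univ_four]
  have hn2 : (0 : ℝ) < (n : ℝ) ^ 2 := by positivity
  have g0 : 0 ≤ ∑ x, (v x - v (act 0 x)) ^ 2 := Finset.sum_nonneg fun _ _ => sq_nonneg _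
  have g1 : 0 ≤ ∑ x, (v x - v (act 1 x)) ^ 2 := Finset.sum_nonneg fun _ _ => sq_nonneg _
  refine le_of_mul_le_mul_left ?_ hn2
  nlinarith [mul_nonneg hn2.le g0, mul_nonneg hn2.le g1]

/-- The `L^1` form of the spectral gap for functions with small support. -/
theorem gap_one (u : ZMod n × ZMod n → ℝ) (σ : Equiv.Perm (ZMod n × ZMod n))
    (hσ : ∀ x, u x = 0 ∨ u (σ x) = 0) :
    ∑ x, |u x| ≤ 24 * ∑ i : Fin 4, ∑ x, |u x - u (act i x)| := by
  let w : ZMod n × ZMod n → ℝ := fun x => √|u x|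
  let c : ℝ := (∑ x, w x) / Fintype.card (ZMod n × ZMod n)
  have hcard : (0 : ℝ) < Fintype.card (ZMod n × ZMod n) := by exact_mod_cast Fintype.card_pos
  have hv : ∑ x, (w x - c) = 0 := by
    rw [Finset.sum_sub_distrib, Finset.sum_const, Finset.card_univ, nsmul_eq_mul]
    simp only [c]
    field_simp
    ring
  have hg := gap_two (fun x => w x - c) hv
  have hw : ∀ x, w x ^ 2 = |u x| := fun x => Real.sq_sqrt (abs_nonneg _)
  have h1 : 2 * ∑ x, |u x| ≤ 4 * ∑ x, (w x - c) ^ 2 := by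
    have e1 : ∑ x, |u (σ x)| = ∑ x, |u x| := Equiv.sum_comp σ (fun x => |u x|)
    have e2 : ∑ x, (w (σ x) - c) ^ 2 = ∑ x, (w x - c) ^ 2 :=
      Equiv.sum_comp σ (fun x => (w x - c) ^ 2)
    have e3 : ∑ x, (|u x| + |u (σ x)|) ≤ ∑ x, (2 * (w x - c) ^ 2 + 2 * (w (σ x) - c) ^ 2) := by
      refine Finset.sum_le_sum fun x _ => ?_
      rw [← hw, ← hw]
      have hz : w x * w (σ x) = 0 := by
        rcases hσ x with h | h <;> simp [w, h]
      nlinarith [sq_nonneg (w x + w (σ x) - 2 * c)]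
    rw [Finset.sum_add_distrib, Finset.sum_add_distrib, ← Finset.mul_sum, ← Finset.mul_sum,
      e1, e2] at e3
    linarith
  have h2 : ∑ i : Fin 4, ∑ x, ((w x - c) - (w (act i x) - c)) ^ 2
      ≤ ∑ i : Fin 4, ∑ x, |u x - u (act i x)| := by
    refine Finset.sum_le_sum fun i _ => Finset.sum_le_sum fun x _ => ?_
    have ha := hw x
    have hb := hw (act i x)
    have hc := abs_abs_sub_abs_le (u x) (u (act i x))
    have p1 : 0 ≤ w x := Real.sqrt_nonneg _
    have p2 : 0 ≤ w (act i x) := Real.sqrt_nonneg _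
    rw [← ha, ← hb] at hc
    have hc' := abs_le.1 hc
    rcases le_total (w x) (w (act i x)) with h | h <;> nlinarith [hc'.1, hc'.2]
  linarith

end ZModPart

/-- The product form of the gap for coprime moduli. -/
theorem gap_prod (p q : ℕ) [NeZero p] [NeZero q] (hpq : p.Coprime q)
    (u : ZMod p × ZMod p → ZMod q × ZMod q → ℝ)
    (hσ : ∀ x y, u x y = 0 ∨ u (act 0 x) y = 0) :
    ∑ x, ∑ y, |u x y| ≤ 24 * ∑ i : Fin 4, ∑ x, ∑ y, |u x y - u (act i x) (act i y)| := by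
  have : NeZero (p * q) := ⟨Nat.mul_ne_zero (NeZero.ne p) (NeZero.ne q)⟩
  let e := ZMod.chineseRemainder hpq
  let Φ : ZMod (p * q) × ZMod (p * q) ≃ (ZMod p × ZMod p) × (ZMod q × ZMod q) :=
    (Equiv.prodCongr e.toEquiv e.toEquiv).trans (Equiv.prodProdProdComm _ _ _ _)
  have hΦ : ∀ z, Φ z = (((e z.1).1, (e z.2).1), ((e z.1).2, (e z.2).2)) := fun z => rfl
  have hact : ∀ i z, Φ (act i z) = (act i (Φ z).1, act i (Φ z).2) := by
    intro i z
    rw [hΦ, hΦ]
    have h1 := act_map ((RingHom.fst _ _).comp e.toRingHom) i z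
    have h2 := act_map ((RingHom.snd _ _).comp e.toRingHom) i z
    exact Prod.ext h1.symm h2.symm
  let τ : Equiv.Perm ((ZMod p × ZMod p) × (ZMod q × ZMod q)) :=
    Equiv.prodCongr (act 0) (Equiv.refl _)
  have h := gap_one (fun z => u (Φ z).1 (Φ z).2) ((Φ.trans τ).trans Φ.symm) (by
    intro z
    simp only [Equiv.trans_apply, Equiv.apply_symm_apply]
    exact hσ _ _)
  simp only [hact] at h
  rw [Equiv.sum_comp Φ (fun z => |u z.1 z.2|), Fintype.sum_prod_type] at h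
  refine h.trans (le_of_eq ?_)
  congr 1
  refine Finset.sum_congr rfl fun i _ => ?_
  rw [Equiv.sum_comp Φ (fun z => |u z.1 z.2 - u (act i z.1) (act i z.2)|), Fintype.sum_prod_type]

end

end Vale.Agent.P090
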