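import Vale.Agent.P090.Free
import Vale.Agent.P090.Combi

/-!
The main estimate: one level of the construction rules out the `lam`-BAP.
-/

namespace Vale.Agent.P090

noncomputable section

theorem two_point {X : Type} (V : Finset X) (θ a b : X → ℝ) (v1 v2 : X) {η : ℝ} (hη : 0 ≤ η)
    (hθ : ∀ v, |θ v| ≤ 1) (ha : ∀ v, v ≠ v1 → a v = 0) (hb : ∀ v, v ≠ v2 → b v = 0)
    (hab : ∀ v, |a v - b v| ≤ η) :
    |∑ v ∈ V, θ v * a v - ∑ v ∈ V, θ v * b v| ≤ 2 * η := by
  classical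
  rw [← Finset.sum_sub_distrib]
  refine (Finset.abs_sum_le_sum_abs _ _).trans ?_
  have h1 : ∑ v ∈ V, |θ v * a v - θ v * b v|
      ≤ ∑ v ∈ V, ((if v = v1 then η else 0) + (if v = v2 then η else 0)) := by
    refine Finset.sum_le_sum fun v _ => ?_
    have h2 : |θ v * a v - θ v * b v| ≤ |a v - b v| := by
      rw [← mul_sub, abs_mul]
      exact mul_le_of_le_one_left (abs_nonneg _) (hθ v)
    by_cases e1 : v = v1
    · have := hab v
      rw [if_pos e1]
      split_ifs <;> linarith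
    · by_cases e2 : v = v2
      · have := hab v
        rw [if_neg e1, if_pos e2]
        linarith
      · rw [ha v e1, hb v e2, if_neg e1, if_neg e2]
        simp
  refine h1.trans ?_
  rw [Finset.sum_add_distrib, Finset.sum_ite_eq', Finset.sum_ite_eq']
  split_ifs <;> linarith

theorem one_point {X : Type} (V : Finset X) (θ a : X → ℝ) (v1 : X)
    (hθ : ∀ v, |θ v| ≤ 1) (ha : ∀ v, v ≠ v1 → a v = 0) (ha1 : ∀ v, |a v| ≤ 1) :
    |∑ v ∈ V, θ v * a v| ≤ 2 := by
  have h := two_point V θ a (fun _ => 0) v1 v1 zero_le_one hθ ha (fun _ _ => rfl)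
    (fun v => by simpa using ha1 v)
  simpa using h

theorem exists_sign {X : Type} (V : Finset X) (a : X → ℝ) :
    ∃ θ : X → ℝ, (∀ v, |θ v| ≤ 1) ∧ ∑ v ∈ V, |a v| = ∑ v ∈ V, θ v * a v := by
  refine ⟨fun v => if 0 ≤ a v then 1 else -1, fun v => ?_, Finset.sum_congr rfl fun v _ => ?_⟩
  · beta_reduce
    split_ifs <;> simp
  · beta_reduce
    split_ifs with h
    · rw [abs_of_nonneg h, one_mul]
    · rw [abs_of_neg (not_le.1 h)]
      ring

theorem op_le {E : Type} [NormedAddCommGroup E] [NormedSpace ℝ E] (T : E →L[ℝ] E) {lam c : ℝ}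
    (hT : ‖T‖ ≤ lam) (x : E) (hx : ‖x‖ ≤ c) : ‖T x‖ ≤ lam * c :=
  (T.le_opNorm x).trans (mul_le_mul hT hx (norm_nonneg _) ((norm_nonneg _).trans hT))

theorem op_sub_le {E : Type} [NormedAddCommGroup E] [NormedSpace ℝ E] (T : E →L[ℝ] E) {lam c : ℝ}
    (hT : ‖T‖ ≤ lam) (x y : E) (hx : ‖x - y‖ ≤ c) : ‖T x - T y‖ ≤ lam * c := by
  rw [← map_sub]
  exact op_le T hT _ hx

theorem level_not_bap {X ι : Type} [Infinite ι] (G : Gens X ι) (L : ℕ) (P : PhiData G L)
    (Q : Fin 4 → Equiv.Perm X) (hQ : ∀ i, Q i ∈ G.S) (hfix : ∀ x, Q 0 x ≠ x)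
    (hne : ∀ i, (G.W i).Nonempty)
    (gap : ∀ i j, i ≠ j → ∀ u : X → X → ℝ, (∀ x y, u x y = 0 ∨ u (Q 0 x) y = 0) →
      ∑ x ∈ G.W i, ∑ y ∈ G.W j, |u x y| ≤
        24 * ∑ k : Fin 4, ∑ x ∈ G.W i, ∑ y ∈ G.W j, |u x y - u (Q k x) (Q k y)|)
    {M : Type} [MetricSpace M] (o : M) (e : X → M) (he : Function.Injective e)
    (ho : o ∉ Set.range e) (hsep : ∀ m m' : M, m ≠ m' → 1 ≤ dist m m') (r lam : ℝ)
    (h1 : ∀ s ∈ G.S, ∀ x, dist (e x) (e (s x)) ≤ 1)
    (h2 : ∀ x y, P.same x y → dist (e x) (e y) ≤ r)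
    (h3 : ∀ x, dist (e x) o ≤ L)
    (hK : ∀ (F : Lip0 M o) (K : ℝ), 0 < K → (∀ m, m ∉ Set.range e → F.toFun m = 0) →
      (∀ s ∈ G.S, ∀ x, |F.toFun (e x) - F.toFun (e (s x))| ≤ K) →
      (∀ x y, P.same x y → |F.toFun (e x) - F.toFun (e y)| ≤ K * r) →
      (∀ x, |F.toFun (e x)| ≤ K * L) → ‖F‖ ≤ K)
    (hlam : 1 ≤ lam) (hr : 1000 * lam ≤ r) (hL : 4000 * (lam * r + 2) ≤ L) :
    ¬ HasBoundedAPWith (FreeSpace M o) lam := by
  classical
  intro hbap
  have hr0 : 0 < r := by linarith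
  have hlr : r ≤ lam * r := by nlinarith
  have hL0 : (0 : ℝ) < L := by linarith
  have hrL : r ≤ L := by linarith
  obtain ⟨T, hTfin, hTn, hTA⟩ := hbap ((fun a => deltaF o (e a)) '' P.A)
    (P.A_fin.image _).isCompact 1 one_pos
  let μ : X → StrongDual ℝ (Lip0 M o) := fun t => (T (deltaF o (e t)) : FreeSpace M o)
  have hμ1 : ∀ t t' (F : Lip0 M o), |μ t F - μ t' F| ≤ lam * dist (e t) (e t') * ‖F‖ := by
    intro t t' F
    have a1 : ‖μ t - μ t'‖ ≤ lam * dist (e t) (e t') := by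
      have a2 : ‖T (deltaF o (e t)) - T (deltaF o (e t'))‖ ≤ lam * dist (e t) (e t') := by
        exact op_sub_le T hTn _ _ (norm_deltaF_sub_le _ _)
      exact a2
    have a3 := (μ t - μ t').le_opNorm F
    rw [sub_apply, Real.norm_eq_abs] at a3
    exact a3.trans (mul_le_mul_of_nonneg_right a1 (norm_nonneg F))
  have hμ2 : ∀ t, ∃ a, P.same t a ∧ ∀ F : Lip0 M o,
      |μ t F - F.toFun (e a)| ≤ (lam * r + 1) * ‖F‖ := by
    intro t
    obtain ⟨a, ha, hs⟩ := P.A_rep t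
    refine ⟨a, hs, fun F => ?_⟩
    have a1 : ‖μ a - delta o (e a)‖ ≤ 1 := (hTA _ ⟨a, ha, rfl⟩).le
    have a3 := (μ a - delta o (e a)).le_opNorm F
    rw [sub_apply, Real.norm_eq_abs, delta_apply] at a3
    have a4 := hμ1 t a F
    have a5 : lam * dist (e t) (e a) * ‖F‖ ≤ lam * r * ‖F‖ :=
      mul_le_mul_of_nonneg_right (mul_le_mul_of_nonneg_left (h2 t a hs) (by linarith))
        (norm_nonneg F)
    have a6 : ‖μ a - delta o (e a)‖ * ‖F‖ ≤ ‖F‖ := mul_le_of_le_one_left (norm_nonneg F) a1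
    have a7 := abs_sub_le (μ t F) (μ a F) (F.toFun (e a))
    linarith
  obtain ⟨K, hKc, hKm⟩ := finiteRank_compact T hTfin (lam * L)
  obtain ⟨B, hB, hBK⟩ := compact_finite_support hKc (ε := 1 / 24) (by norm_num)
  have hμ3 : ∀ t (F : Lip0 M o), (∀ b ∈ B, F.toFun b = 0) → |μ t F| ≤ 1 / 24 * ‖F‖ := by
    intro t F hF
    refine hBK _ (hKm _ ?_) F hF
    exact op_le T hTn _ ((norm_deltaF_le _).trans (h3 t))
  have hφ1 : ∀ t v w, |P.φ t v w| ≤ 1 := fun t v w =>
    abs_le.2 ⟨by linarith [P.nonneg t v w], P.le_one t v w⟩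
  choose Φ hΦ hΦ0 using fun t v => exists_extension hsep e he ho (P.φ t v) (hφ1 t v)
  choose Ψ hΨ hΨ0 using fun t => exists_extension hsep e he ho
    (fun w => P.φ t (P.v0 t w) w) (fun w => hφ1 t _ w)
  have hle : ∀ t v w, P.φ t v w ≤ P.φ t (P.v0 t w) w := by
    intro t v w
    by_cases h : v = P.v0 t w
    · rw [← h]
    · rw [P.uniq t v w h]
      exact P.nonneg _ _ _
  -- the finite set of components met by `B`
  have hBf : (G.comp '' (e ⁻¹' B)).Finite := (hB.preimage he.injOn).image _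
  obtain ⟨p, hp⟩ := Infinite.exists_notMem_finset hBf.toFinset
  let V : Finset X := hBf.toFinset.biUnion G.W
  have hV : ∀ x, x ∈ V ↔ G.comp x ∈ hBf.toFinset := by
    intro x
    simp only [V, Finset.mem_biUnion, G.mem_W]
    exact ⟨fun ⟨i, hi, h⟩ => h ▸ hi, fun h => ⟨_, h, rfl⟩⟩
  have hsumV : ∀ f : X → ℝ, ∑ v ∈ V, f v = ∑ q ∈ hBf.toFinset, ∑ v ∈ G.W q, f v := by
    intro f
    refine Finset.sum_biUnion fun i _ j _ hij => ?_
    refine Finset.disjoint_left.2 fun x hi hj => hij ?_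
    rw [← (G.mem_W _ _).1 hi, ← (G.mem_W _ _).1 hj]
  let κ : X → X → ℝ := fun t v => μ t (Φ t v)
  -- lower bound
  have hlow : ∀ t, (7 : ℝ) / 10 ≤ ∑ v ∈ V, |κ t v| := by
    intro t
    have b1 : ‖Ψ t‖ ≤ 1 / L := by
      refine hK (Ψ t) (1 / L) (by positivity) (hΨ0 t) (fun s hs x => ?_) (fun x y hxy => ?_)
        (fun x => ?_)
      · rw [hΨ, hΨ]
        have c1 := abs_le.1 (P.lip_w s hs t (P.v0 t x) x)
        have c2 := abs_le.1 (P.lip_w s hs t (P.v0 t (s x)) x)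
        have c3 := hle t (P.v0 t x) (s x)
        have c4 := hle t (P.v0 t (s x)) x
        rw [abs_le]
        constructor <;> linarith [c1.1, c1.2, c2.1, c2.2]
      · rw [hΨ, hΨ, P.same_eq t x y hxy, sub_self, abs_zero]
        positivity
      · rw [hΨ, one_div_mul_cancel hL0.ne']
        exact hφ1 _ _ _
    obtain ⟨a, ha, hμa⟩ := hμ2 t
    have b2 : (Ψ t).toFun (e a) = 1 := by
      rw [hΨ, ← P.same_eq t t a ha]
      have c1 := hle t t t
      rw [P.diag] at c1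
      exact le_antisymm (P.le_one _ _ _) c1
    have b3 := hμa (Ψ t)
    rw [b2] at b3
    have b4 : (lam * r + 1) * ‖Ψ t‖ ≤ 1 / 20 := by
      refine (mul_le_mul_of_nonneg_left b1 (by linarith)).trans ?_
      rw [mul_one_div, div_le_iff₀ hL0]
      linarith
    let R : Lip0 M o := Ψ t - ∑ v ∈ V, (1 : ℝ) • Φ t v
    have b5 : ‖R‖ ≤ 2 * 3 := by
      refine norm_le_of_bdd hsep R fun m => ?_
      simp only [R, toFun_sub, toFun_sum]
      by_cases hm : m ∈ Set.range e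
      · obtain ⟨w, rfl⟩ := hm
        simp only [hΨ, hΦ]
        have c1 := one_point V (fun _ => 1) (fun v => P.φ t v w) (P.v0 t w) (by simp)
          (fun v hv => P.uniq t v w hv) (fun v => hφ1 t v w)
        have c2 := abs_sub (P.φ t (P.v0 t w) w) (∑ v ∈ V, 1 * P.φ t v w)
        linarith [hφ1 t (P.v0 t w) w]
      · simp [hΨ0 t m hm, hΦ0 t _ m hm]
    have b6 : ∀ b ∈ B, R.toFun b = 0 := by
      intro b hb
      simp only [R, toFun_sub, toFun_sum]
      by_cases hm : b ∈ Set.range e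
      · obtain ⟨w, rfl⟩ := hm
        simp only [hΨ, hΦ, one_mul]
        by_cases h0 : P.φ t (P.v0 t w) w = 0
        · rw [h0, Finset.sum_eq_zero, sub_zero]
          intro v _
          by_cases hv : v = P.v0 t w
          · rw [hv, h0]
          · exact P.uniq t v w hv
        · rw [Finset.sum_eq_single_of_mem (P.v0 t w), sub_self]
          · rw [hV, P.comp_eq _ _ _ h0]
            exact hBf.mem_toFinset.2 ⟨w, hb, rfl⟩
          · intro v _ hv
            exact P.uniq t v w hv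
      · simp [hΨ0 t b hm, hΦ0 t _ b hm]
    have b7 := hμ3 t R b6
    have b8 : μ t R = μ t (Ψ t) - ∑ v ∈ V, κ t v := by
      simp only [R, map_sub, map_sum, one_smul, κ]
    rw [b8] at b7
    have b9 : ∑ v ∈ V, κ t v ≤ ∑ v ∈ V, |κ t v| := Finset.sum_le_sum fun v _ => le_abs_self _
    have c1 := (abs_le.1 b3).1
    have c2 := (abs_le.1 b7).2
    linarith
  -- almost invariance
  have hinv : ∀ s ∈ G.S, ∀ t, ∑ v ∈ V, |κ t v - κ (s t) (s v)| ≤ 1 / 150 := by
    intro s hs t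
    obtain ⟨θ, hθ, hsum⟩ := exists_sign V (fun v => κ t v - κ (s t) (s v))
    rw [hsum]
    let F : Lip0 M o := ∑ v ∈ V, θ v • Φ t v
    let F' : Lip0 M o := ∑ v ∈ V, θ v • Φ (s t) (s v)
    have hF1 : ∀ x, |F.toFun (e x)| ≤ 2 := by
      intro x
      simp only [F, toFun_sum, hΦ]
      exact one_point V θ (fun v => P.φ t v x) (P.v0 t x) hθ
        (fun v hv => P.uniq t v x hv) (fun v => hφ1 t v x)
    have b1 : ‖F‖ ≤ 4 / r := by
      refine hK F (4 / r) (by positivity) (fun m hm => ?_) (fun s' hs' x => ?_)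
        (fun x y _ => ?_) (fun x => ?_)
      · simp [F, toFun_sum, hΦ0 t _ m hm]
      · simp only [F, toFun_sum, hΦ]
        refine (two_point V θ (fun v => P.φ t v x) (fun v => P.φ t v (s' x)) (P.v0 t x)
          (P.v0 t (s' x)) (η := 1 / L) (by positivity) hθ (fun v hv => P.uniq t v x hv)
          (fun v hv => P.uniq t v _ hv) (fun v => P.lip_w s' hs' t v x)).trans ?_
        rw [mul_one_div, div_le_div_iff₀ hL0 hr0]
        linarith
      · rw [div_mul_cancel₀ _ hr0.ne']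
        have c2 := abs_sub (F.toFun (e x)) (F.toFun (e y))
        linarith [hF1 x, hF1 y]
      · refine (hF1 x).trans ?_
        rw [div_mul_eq_mul_div, le_div_iff₀ hr0]
        linarith
    have b2 : ∀ m, |(F - F').toFun m| ≤ 4 / L := by
      intro m
      simp only [F, F', toFun_sub, toFun_sum]
      by_cases hm : m ∈ Set.range e
      · obtain ⟨w, rfl⟩ := hm
        simp only [hΦ]
        refine (two_point V θ (fun v => P.φ t v w) (fun v => P.φ (s t) (s v) w) (P.v0 t w)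
          (s⁻¹ (P.v0 (s t) w)) (η := 2 / L) (by positivity) hθ (fun v hv => P.uniq t v w hv)
          (fun v hv => P.uniq _ _ w fun h => hv ?_) (fun v => P.lip_tv s hs t v w)).trans
          (le_of_eq (by ring))
        rw [← h]
        simp
      · simp only [hΦ0 _ _ m hm, mul_zero, Finset.sum_const_zero, sub_zero, abs_zero]
        positivity
    have b3 := norm_le_of_bdd hsep (F - F') b2
    obtain ⟨a, -, hμa⟩ := hμ2 (s t)
    have b4 := hμa (F - F')
    have b5 := hμ1 t (s t) F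
    have b6 : lam * dist (e t) (e (s t)) * ‖F‖ ≤ 1 / 250 := by
      have c1 : lam * dist (e t) (e (s t)) ≤ lam := mul_le_of_le_one_right (by linarith) (h1 s hs t)
      refine (mul_le_mul c1 b1 (norm_nonneg _) (by linarith)).trans ?_
      rw [mul_div_assoc', div_le_iff₀ hr0]
      linarith
    have b7 : (lam * r + 1) * ‖F - F'‖ + 4 / L ≤ 1 / 500 := by
      have c1 := mul_le_mul_of_nonneg_left b3 (show 0 ≤ lam * r + 1 by linarith)
      have c2 : (lam * r + 1) * (2 * (4 / (L : ℝ))) + 4 / L = (8 * (lam * r) + 12) / L := by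
        field_simp
        ring
      have c3 : (8 * (lam * r) + 12) / (L : ℝ) ≤ 1 / 500 := by
        rw [div_le_iff₀ hL0]
        linarith
      linarith
    have b8 : ∑ v ∈ V, θ v * (κ t v - κ (s t) (s v))
        = (μ t F - μ (s t) F) + μ (s t) (F - F') := by
      simp only [F, F', map_sub, map_sum, map_smul, smul_eq_mul, κ, mul_sub,
        Finset.sum_sub_distrib]
      ring
    rw [b8]
    have c1 := (abs_le.1 b4).2
    have c2 := (abs_le.1 b5).2
    have c3 := (abs_le.1 (b2 (e a))).2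
    linarith
  -- small support
  have hsupp : ∀ x y, κ x y = 0 ∨ κ (Q 0 x) y = 0 := by
    have z : ∀ t v, (∀ w, P.φ t v w = 0) → κ t v = 0 := by
      intro t v h
      have : Φ t v = 0 := by
        have c := norm_le_of_bdd hsep (Φ t v) (h := 0) fun m => by
          by_cases hm : m ∈ Set.range e
          · obtain ⟨w, rfl⟩ := hm
            rw [hΦ, h, abs_zero]
          · rw [hΦ0 t v m hm, abs_zero]
        rw [mul_zero] at c
        exact norm_le_zero_iff.1 c
      simp only [κ, this, map_zero]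
    intro x y
    rcases P.supp (Q 0) (hQ 0) x (hfix x) y with h | h
    · exact Or.inl (z _ _ h)
    · exact Or.inr (z _ _ h)
  -- conclusion
  have hcard : (0 : ℝ) < (G.W p).card := by exact_mod_cast (hne p).card_pos
  have f1 : (G.W p).card * ((7 : ℝ) / 10) ≤ ∑ t ∈ G.W p, ∑ v ∈ V, |κ t v| := by
    rw [← nsmul_eq_mul]
    exact Finset.card_nsmul_le_sum _ _ _ fun t _ => hlow t
  have f2 : ∑ t ∈ G.W p, ∑ v ∈ V, |κ t v| ≤
      24 * ∑ k : Fin 4, ∑ t ∈ G.W p, ∑ v ∈ V, |κ t v - κ (Q k t) (Q k v)| := by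
    simp only [hsumV]
    rw [Finset.sum_comm]
    have g1 : ∀ k : Fin 4, ∑ t ∈ G.W p, ∑ q ∈ hBf.toFinset, ∑ v ∈ G.W q,
        |κ t v - κ (Q k t) (Q k v)| = ∑ q ∈ hBf.toFinset, ∑ t ∈ G.W p, ∑ v ∈ G.W q,
        |κ t v - κ (Q k t) (Q k v)| := fun k => Finset.sum_comm
    simp only [g1]
    rw [Finset.sum_comm (s := Finset.univ), Finset.mul_sum]
    refine Finset.sum_le_sum fun q hq => gap p q (fun h => hp (h ▸ hq)) κ hsupp
  have f3 : ∑ k : Fin 4, ∑ t ∈ G.W p, ∑ v ∈ V, |κ t v - κ (Q k t) (Q k v)|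
      ≤ 4 * ((G.W p).card * ((1 : ℝ) / 150)) := by
    have g1 : ∀ k : Fin 4, ∑ t ∈ G.W p, ∑ v ∈ V, |κ t v - κ (Q k t) (Q k v)|
        ≤ (G.W p).card * ((1 : ℝ) / 150) := by
      intro k
      rw [← nsmul_eq_mul]
      exact Finset.sum_le_card_nsmul _ _ _ fun t _ => hinv _ (hQ k) t
    rw [Fin.sum_univ_four]
    linarith [g1 0, g1 1, g1 2, g1 3]
  linarith

end

end Vale.Agent.P090
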