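import Vale.Agent.P090.Level
import Vale.Agent.P090.Gap

/-!
The construction of the uniformly discrete space.
-/

namespace Vale.Agent.P090

noncomputable section

theorem exists_metric {M : Type} (𝓕 : Set (M → ℝ)) (hbdd : ∀ m m', ∃ B, ∀ F ∈ 𝓕, |F m - F m'| ≤ B)
    (h0 : (0 : M → ℝ) ∈ 𝓕) (hsep : ∀ m m', m ≠ m' → ∃ F ∈ 𝓕, 1 ≤ |F m - F m'|) :
    ∃ _ : MetricSpace M, (∀ F ∈ 𝓕, ∀ m m', |F m - F m'| ≤ dist m m') ∧
      (∀ m m' B, (∀ F ∈ 𝓕, |F m - F m'| ≤ B) → dist m m' ≤ B) ∧
      (∀ m m' : M, m ≠ m' → 1 ≤ dist m m') := by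
  let d : M → M → ℝ := fun m m' => sSup ((fun F : M → ℝ => |F m - F m'|) '' 𝓕)
  have h1 : ∀ F ∈ 𝓕, ∀ m m', |F m - F m'| ≤ d m m' := by
    intro F hF m m'
    obtain ⟨B, hB⟩ := hbdd m m'
    refine le_csSup ⟨B, ?_⟩ ⟨F, hF, rfl⟩
    rintro _ ⟨F', hF', rfl⟩
    exact hB F' hF'
  have h2 : ∀ m m' B, (∀ F ∈ 𝓕, |F m - F m'| ≤ B) → d m m' ≤ B := by
    intro m m' B hB
    refine csSup_le ⟨_, 0, h0, rfl⟩ ?_
    rintro _ ⟨F', hF', rfl⟩
    exact hB F' hF'
  have h3 : ∀ m m' : M, m ≠ m' → 1 ≤ d m m' := by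
    intro m m' h
    obtain ⟨F, hF, h1F⟩ := hsep m m' h
    exact h1F.trans (h1 F hF m m')
  have h4 : ∀ m m', 0 ≤ d m m' := fun m m' => (abs_nonneg _).trans (h1 0 h0 m m')
  refine ⟨{ dist := d
            dist_self := fun m => le_antisymm (h2 m m 0 fun F _ => by simp) (h4 m m)
            dist_comm := fun m m' => le_antisymm
              (h2 _ _ _ fun F hF => by rw [abs_sub_comm]; exact h1 F hF _ _)
              (h2 _ _ _ fun F hF => by rw [abs_sub_comm]; exact h1 F hF _ _)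
            dist_triangle := fun a b c => h2 _ _ _ fun F hF =>
              (abs_sub_le (F a) (F b) (F c)).trans (add_le_add (h1 F hF _ _) (h1 F hF _ _))
            eq_of_dist_eq_zero := fun {a b} h => by
              by_contra hne
              have := h3 a b hne
              have h' : d a b = 0 := h
              linarith }, h1, h2, h3⟩

/-- The vertex set: the disjoint union of the planes over the prime fields. -/
abbrev Vert : Type := Σ p : Nat.Primes, ZMod p × ZMod p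

instance primeNeZero (p : Nat.Primes) : NeZero (p : ℕ) := ⟨p.2.ne_zero⟩

/-- The generators acting on the vertex set. -/
def gen (i : Fin 4) : Equiv.Perm Vert := Equiv.sigmaCongrRight fun _ => act i

theorem gen_apply (i : Fin 4) (p : Nat.Primes) (x : ZMod p × ZMod p) :
    gen i ⟨p, x⟩ = ⟨p, act i x⟩ := rfl

theorem mk_inj (p : Nat.Primes) :
    Function.Injective fun x : ZMod p × ZMod p => (⟨p, x⟩ : Vert) :=
  @sigma_mk_injective Nat.Primes (fun p => ZMod p × ZMod p) p

/-- The component of the prime `p`. -/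
def comp (p : Nat.Primes) : Finset Vert :=
  Finset.univ.map ⟨fun x : ZMod p × ZMod p => (⟨p, x⟩ : Vert), mk_inj p⟩

theorem sum_comp (p : Nat.Primes) (f : Vert → ℝ) :
    ∑ x ∈ comp p, f x = ∑ x : ZMod p × ZMod p, f ⟨p, x⟩ := by
  rw [comp, Finset.sum_map]
  rfl

/-- The generating set. -/
def gens : Gens Vert Nat.Primes where
  S := insert 1 (Set.range gen ∪ Set.range fun i => (gen i)⁻¹)
  comp := Sigma.fst
  W := comp
  fin := ((Set.finite_range _).union (Set.finite_range _)).insert _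
  one_mem := Set.mem_insert _ _
  inv_mem := by
    rintro s (rfl | ⟨i, rfl⟩ | ⟨i, rfl⟩)
    · exact Or.inl inv_one
    · exact Or.inr (Or.inr ⟨i, rfl⟩)
    · exact Or.inr (Or.inl ⟨i, (inv_inv _).symm⟩)
  comp_eq := by
    rintro s (rfl | ⟨i, rfl⟩ | ⟨i, rfl⟩) x <;> rfl
  mem_W := by
    rintro p ⟨q, x⟩
    simp only [comp, Finset.mem_map, Finset.mem_univ, true_and, Function.Embedding.coeFn_mk]
    constructor
    · rintro ⟨y, hy⟩
      exact (congrArg Sigma.fst hy).symm
    · rintro rfl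
      exact ⟨x, rfl⟩

theorem gen_zero_ne (x : Vert) : gen 0 x ≠ x := by
  obtain ⟨p, x⟩ := x
  have : Fact (p : ℕ).Prime := ⟨p.2⟩
  rw [gen_apply, act0]
  intro h
  have h1 := congrArg Prod.fst (mk_inj p h)
  simp at h1

theorem gens_gap (p q : Nat.Primes) (hpq : p ≠ q) (u : Vert → Vert → ℝ)
    (hu : ∀ x y, u x y = 0 ∨ u (gen 0 x) y = 0) :
    ∑ x ∈ gens.W p, ∑ y ∈ gens.W q, |u x y| ≤
      24 * ∑ k : Fin 4, ∑ x ∈ gens.W p, ∑ y ∈ gens.W q, |u x y - u (gen k x) (gen k y)| := by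
  have hc : (p : ℕ).Coprime q := (Nat.coprime_primes p.2 q.2).2 fun h => hpq (Subtype.ext h)
  have h := gap_prod p q hc (fun x y => u ⟨p, x⟩ ⟨q, y⟩) fun x y => hu ⟨p, x⟩ ⟨q, y⟩
  simp only [gens, sum_comp, gen_apply]
  exact h

theorem exists_not_bap : ∃ (M : Type) (_ : MetricSpace M) (o : M),
    Countable M ∧ UniformlyDiscrete M ∧ ¬ HasBAP (FreeSpace M o) := by
  classical
  let r : ℕ → ℕ := fun k => 1000 * (k + 1)
  let L : ℕ → ℕ := fun k => 4000 * ((k + 1) * r k + 2)
  have hr1 : ∀ k, (1 : ℝ) ≤ r k := fun k => by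
    have : 1 ≤ r k := by simp only [r]; omega
    exact_mod_cast this
  have hL1 : ∀ k, (1 : ℝ) ≤ L k := fun k => by
    have : 1 ≤ L k := by simp only [L]; omega
    exact_mod_cast this
  have hP : ∀ k, Nonempty (PhiData gens (L k)) := fun k =>
    exists_phiData gens (L k) (by simp only [L]; omega)
  let P : ∀ k, PhiData gens (L k) := fun k => (hP k).some
  let 𝓕 : Set (Option (ℕ × Vert) → ℝ) := {F |
    (∀ k, ∀ s ∈ gens.S, ∀ x, |F (some (k, x)) - F (some (k, s x))| ≤ 1) ∧
    (∀ k x y, (P k).same x y → |F (some (k, x)) - F (some (k, y))| ≤ r k) ∧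
    (∀ k x, |F (some (k, x)) - F none| ≤ L k)}
  have hsmall : ∀ F : Option (ℕ × Vert) → ℝ, (∀ m m', |F m - F m'| ≤ 1) → F ∈ 𝓕 :=
    fun F hF => ⟨fun k s _ x => hF _ _, fun k x y _ => (hF _ _).trans (hr1 k),
      fun k x => (hF _ _).trans (hL1 k)⟩
  obtain ⟨inst, d1, d2, d3⟩ := exists_metric 𝓕 (by
      have a : ∀ m, ∃ B, ∀ F ∈ 𝓕, |F m - F none| ≤ B := by
        rintro (_ | ⟨k, x⟩)
        · exact ⟨0, fun F _ => by simp⟩
        · exact ⟨L k, fun F hF => hF.2.2 k x⟩
      intro m m'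
      obtain ⟨B, hB⟩ := a m
      obtain ⟨B', hB'⟩ := a m'
      refine ⟨B + B', fun F hF => (abs_sub_le (F m) (F none) (F m')).trans ?_⟩
      rw [abs_sub_comm (F none)]
      exact add_le_add (hB F hF) (hB' F hF))
    (hsmall 0 fun m m' => by simp) (by
      intro m m' h
      refine ⟨fun z => if z = m then 1 else 0, hsmall _ fun a b => ?_, ?_⟩
      · split_ifs <;> simp
      · simp [h.symm])
  refine ⟨Option (ℕ × Vert), inst, none, inferInstance, ⟨1, one_pos, d3⟩, ?_⟩
  rintro ⟨lam, hlam, hbap⟩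
  obtain ⟨k, hk⟩ := exists_nat_ge lam
  have hk1 : lam ≤ (k : ℝ) + 1 := by linarith
  have hrk : (r k : ℝ) = 1000 * ((k : ℝ) + 1) := by simp only [r]; push_cast; ring
  have hLk : (L k : ℝ) = 4000 * (((k : ℝ) + 1) * r k + 2) := by simp only [L]; push_cast; ring
  refine level_not_bap gens (L k) (P k) gen (fun i => Or.inr (Or.inl ⟨i, rfl⟩)) gen_zero_ne
    (fun p => ⟨⟨p, 0⟩, (gens.mem_W _ _).2 rfl⟩) gens_gap none (fun x => some (k, x))
    (fun x y h => by simpa using h) (by simp) d3 (r k) lam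
    (fun s hs x => d2 _ _ _ fun F hF => hF.1 k s hs x)
    (fun x y h => d2 _ _ _ fun F hF => hF.2.1 k x y h)
    (fun x => d2 _ _ _ fun F hF => hF.2.2 k x) ?_ hlam (by linarith) ?_ hbap
  · intro F K hK h0 a1 a2 a3
    have hz : ∀ k', k' ≠ k → ∀ x, F.toFun (some (k', x)) = 0 := by
      intro k' hk' x
      refine h0 _ ?_
      rintro ⟨y, hy⟩
      simp only [Option.some.injEq, Prod.mk.injEq] at hy
      exact hk' hy.1.symm
    have hdiv : ∀ a b c : ℝ, |a - b| ≤ K * c → |a / K - b / K| ≤ c := by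
      intro a b c h
      rw [← sub_div, abs_div, abs_of_pos hK, div_le_iff₀ hK, mul_comm]
      exact h
    have hmem : (fun m => F.toFun m / K) ∈ 𝓕 := by
      refine ⟨fun k' s hs x => hdiv _ _ _ ?_, fun k' x y h => hdiv _ _ _ ?_,
        fun k' x => hdiv _ _ _ ?_⟩
      · by_cases e : k' = k
        · subst e
          rw [mul_one]
          exact a1 s hs x
        · rw [hz k' e, hz k' e, sub_self, abs_zero]
          positivity
      · by_cases e : k' = k
        · subst e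
          exact a2 x y h
        · rw [hz k' e, hz k' e, sub_self, abs_zero]
          positivity
      · rw [toFun_base, sub_zero]
        by_cases e : k' = k
        · subst e
          exact a3 x
        · rw [hz k' e, abs_zero]
          positivity
    refine norm_le_of_lip F hK.le fun x y => ?_
    have h := d1 _ hmem x y
    rw [← sub_div, abs_div, abs_of_pos hK, div_le_iff₀ hK, mul_comm] at h
    exact h
  · rw [hLk]
    have := mul_le_mul_of_nonneg_right hk1 (show (0 : ℝ) ≤ r k by linarith [hr1 k])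
    linarith

end

end Vale.Agent.P090
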